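import Vale.Agent.P319.H916.CaseB2

/-! P319, block DBL: the idempotent lemma, case a and the assembly. -/

namespace Vale.Agent.P319.H916

open Finset Matrix Vale.Agent.P319.SC

set_option linter.all false

variable {V ι : Type} [Fintype V] [DecidableEq V] [DecidableEq ι] {m : ℕ}
variable {K : Type} [Field K]

section lin

/-- rank of a sum of two orthogonal idempotents -/
theorem rank_idem {q g : Matrix V V K} (hq : q * q = q) (hg : g * g = g) (h1 : q * g = g)
    (h2 : g * q = g) : g.rank + (q - g).rank ≤ q.rank := by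
  have hr : (q - g) * (q - g) = q - g := by
    rw [sub_mul, mul_sub, mul_sub, hq, h1, h2, hg, sub_self, sub_zero]
  have h3 : LinearMap.range g.mulVecLin ⊓ LinearMap.range (q - g).mulVecLin = ⊥ := by
    rw [Submodule.eq_bot_iff]
    rintro v ⟨⟨a, ha⟩, ⟨b, hb⟩⟩
    simp only [mulVecLin_apply] at ha hb
    have h4 : g *ᵥ v = v := by rw [← ha, mulVec_mulVec, hg]
    have h5 : g *ᵥ v = 0 := by
      rw [← hb, mulVec_mulVec, mul_sub, h2, hg, sub_self, zero_mulVec]
    rw [← h4, h5]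
  have h4 := Submodule.finrank_sup_add_finrank_inf_eq (LinearMap.range g.mulVecLin)
    (LinearMap.range (q - g).mulVecLin)
  rw [h3, finrank_bot, add_zero] at h4
  have h5 : LinearMap.range g.mulVecLin ⊔ LinearMap.range (q - g).mulVecLin ≤
      LinearMap.range q.mulVecLin := by
    rw [sup_le_iff]
    constructor
    · rintro _ ⟨a, rfl⟩
      exact ⟨g *ᵥ a, by simp only [mulVecLin_apply]; rw [mulVec_mulVec, h1]⟩
    · rintro _ ⟨a, rfl⟩
      refine ⟨(q - g) *ᵥ a, ?_⟩
      simp only [mulVecLin_apply]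
      rw [mulVec_mulVec, mul_sub, hq, h1]
  have h6 := Submodule.finrank_mono h5
  rw [h4] at h6
  exact h6

theorem rank_pos_of_ne_zero {A : Matrix V V K} (h : A ≠ 0) : 0 < A.rank := by
  rw [Nat.pos_iff_ne_zero]
  intro h1
  apply h
  have h2 : LinearMap.range A.mulVecLin = ⊥ := by
    rw [Matrix.rank] at h1
    exact Submodule.finrank_eq_zero.1 h1
  ext a b
  have h3 : A.mulVecLin (Pi.single b 1) ∈ LinearMap.range A.mulVecLin := ⟨_, rfl⟩
  rw [h2, Submodule.mem_bot, mulVecLin_apply] at h3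
  have h4 := congrFun h3 a
  simpa using h4

theorem rank_lt [IsAlgClosed K] (A T T' : Matrix V V K) (hA : A ≠ 0) (h : T * A = A * T') :
    ∃ c : K, (T * A - c • A).rank < A.rank := by
  set R := LinearMap.range A.mulVecLin with hR
  have hRT : ∀ v ∈ R, T.mulVecLin v ∈ R := by
    rintro _ ⟨a, rfl⟩
    refine ⟨T' *ᵥ a, ?_⟩
    simp only [mulVecLin_apply]
    rw [mulVec_mulVec, mulVec_mulVec, h]
  have hpos : 0 < Module.finrank K R := rank_pos_of_ne_zero hA
  haveI : Nontrivial R := Module.nontrivial_of_finrank_pos hpos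
  obtain ⟨c, hc⟩ := Module.End.exists_eigenvalue (T.mulVecLin.restrict hRT)
  obtain ⟨u, hu⟩ := hc.exists_hasEigenvector
  refine ⟨c, ?_⟩
  have hu1 : T *ᵥ (u : V → K) = c • (u : V → K) := by
    have h1 := congrArg Subtype.val hu.apply_eq_smul
    simpa using h1
  have hu0 : (u : V → K) ≠ 0 := fun h => hu.2 (Subtype.ext h)
  set L : R →ₗ[K] (V → K) := (T.mulVecLin - c • LinearMap.id).domRestrict R with hL
  have h2 : LinearMap.range (T * A - c • A).mulVecLin = LinearMap.range L := by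
    ext v
    constructor
    · rintro ⟨a, rfl⟩
      refine ⟨⟨A *ᵥ a, ⟨a, rfl⟩⟩, ?_⟩
      simp [hL, sub_mulVec, mulVec_mulVec, smul_mulVec]
    · rintro ⟨⟨_, ⟨a, rfl⟩⟩, rfl⟩
      refine ⟨a, ?_⟩
      simp [hL, sub_mulVec, mulVec_mulVec, smul_mulVec]
  have h3 : (T * A - c • A).rank = Module.finrank K (LinearMap.range L) := by
    rw [Matrix.rank, h2]
  have h4 := LinearMap.finrank_range_add_finrank_ker L
  have h5 : 0 < Module.finrank K (LinearMap.ker L) := by
    haveI : Nontrivial (LinearMap.ker L) := by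
      refine ⟨⟨⟨u, ?_⟩, 0, ?_⟩⟩
      · rw [LinearMap.mem_ker]
        simp [hL, hu1]
      · intro h6
        apply hu0
        have := congrArg (fun z : LinearMap.ker L => ((z : R) : V → K)) h6
        simpa using this
    exact Module.finrank_pos (R := K) (M := LinearMap.ker L)
  have h6 : A.rank = Module.finrank K R := rfl
  omega

variable [CharP K 2]

/-- in characteristic two, the sum of a symmetric function is the sum of its diagonal -/
theorem sum_symm (f : V → V → K) (hf : ∀ a b, f a b = f b a) :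
    ∑ a, ∑ b, f a b = ∑ a, f a a := by
  rw [← Finset.sum_product', Finset.univ_product_univ]
  rw [← Finset.sum_filter_add_sum_filter_not univ (fun p : V × V => p.1 = p.2)]
  have h1 : ∑ p ∈ univ.filter (fun p : V × V => ¬ p.1 = p.2), f p.1 p.2 = 0 := by
    refine Finset.sum_involution (fun p _ => (p.2, p.1)) ?_ ?_ ?_ ?_
    · intro p _
      show f p.1 p.2 + f p.2 p.1 = 0
      rw [hf p.2 p.1]
      exact CharTwo.add_self_eq_zero _
    · intro p hp _ h
      simp only [mem_filter, mem_univ, true_and] at hp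
      exact hp (congrArg Prod.fst h).symm
    · intro p hp
      simp only [mem_filter, mem_univ, true_and] at hp ⊢
      exact fun h => hp h.symm
    · intro p _
      rfl
  rw [h1, add_zero]
  symm
  refine Finset.sum_bij (fun a _ => (a, a)) ?_ ?_ ?_ ?_
  · intro a _; simp
  · intro a _ b _ h; exact congrArg Prod.fst h
  · rintro ⟨a, b⟩ h
    simp only [mem_filter, mem_univ, true_and] at h
    exact ⟨a, mem_univ _, by rw [← h]⟩
  · intro a _; rfl

theorem scalar_eq_one {W : Matrix V V K} (hW : W ≠ 0) {c : K} (h : Wᵀ = c • W) : Wᵀ = W := by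
  have h1 : W = c • (c • W) := by
    conv_lhs => rw [← transpose_transpose W, h, transpose_smul, h]
  obtain ⟨a, b, hab⟩ : ∃ a b, W a b ≠ 0 := by
    by_contra hcon
    push Not at hcon
    exact hW (by ext a b; exact hcon a b)
  have h2 := congrFun (congrFun h1 a) b
  simp only [Matrix.smul_apply, smul_eq_mul] at h2
  have h3 : c * c = 1 * 1 := by
    have : (c * c - 1) * W a b = 0 := by linear_combination -h2
    rcases mul_eq_zero.1 this with h4 | h4
    · linear_combination h4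
    · exact absurd h4 hab
  rcases mul_self_eq_mul_self_iff.1 h3 with h4 | h4
  · rw [h, h4, one_smul]
  · rw [h, h4, CharTwo.neg_eq, one_smul]

end lin

variable [CharP K 2] [IsAlgClosed K]

/-- **the idempotent lemma** -/
theorem idem (𝒟 : Cfg V ι (m + 1)) (hm : 2 ≤ m) {p : Matrix V V K} (hp : 𝒟.Inv2 p)
    (hpp : p * p = p) (hp0 : p ≠ 0) :
    ∃ g : Matrix V V K, 𝒟.Inv2 g ∧ g * g = g ∧ p * g = g ∧ g * p = g ∧ g ≠ 0 ∧
      (∀ N, 𝒟.Inv2 N → p * N = N → N * p = N → N ≠ 0 → g.rank ≤ N.rank) ∧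
      (∀ C, 𝒟.Inv2 C → ∃ c : K, g * C * g = c • g) ∧ g.trace ≠ 0 := by
  have hm3 : 3 ≤ m + 1 := by omega
  obtain ⟨N, ⟨hN, hpN, hNp, hN0⟩, hmin⟩ := (measure (fun N : Matrix V V K => N.rank)).wf.has_min
    {N | 𝒟.Inv2 N ∧ p * N = N ∧ N * p = N ∧ N ≠ 0} ⟨p, hp, hpp, hpp, hp0⟩
  have hmin' : ∀ N', 𝒟.Inv2 N' → p * N' = N' → N' * p = N' → N'.rank < N.rank → N' = 0 := by
    intro N' h1 h2 h3 h4
    by_contra h5
    exact hmin N' ⟨h1, h2, h3, h5⟩ h4
  obtain ⟨a, b, hab⟩ : ∃ a b, N a b ≠ 0 := by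
    by_contra hcon
    push Not at hcon
    exact hN0 (by ext a b; exact hcon a b)
  set B : Matrix V V K := (𝒟.ind K (𝒟.c2 a b))ᵀ with hB
  have hBinv : 𝒟.Inv2 B := (𝒟.inv2_ind _).transpose (by omega)
  have htr : (N * B).trace ≠ 0 := by
    rw [hB, 𝒟.trace_mul_ind hN, odd_cast (𝒟.pairs_odd hm a b), one_mul]
    exact hab
  set N' := N * (p * B * p) with hN'
  have hN'inv : 𝒟.Inv2 N' := hN.mul hm3 ((hp.mul hm3 hBinv).mul hm3 hp)
  have hpN' : p * N' = N' := by rw [hN', ← mul_assoc, hpN]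
  have hN'p : N' * p = N' := by rw [hN']; simp only [mul_assoc, hpp]
  have htr' : N'.trace ≠ 0 := by
    have h1 : N'.trace = (N * B).trace := by
      have h2 : N' = N * B * p := by rw [hN', mul_assoc p B p, ← mul_assoc, hNp, mul_assoc]
      rw [h2, trace_mul_comm, ← mul_assoc, hpN]
    rw [h1]; exact htr
  have hN'0 : N' ≠ 0 := by
    intro h; rw [h, trace_zero] at htr'; exact htr' rfl
  have hN'r : N'.rank ≤ N.rank := rank_mul_le_left _ _
  obtain ⟨c, hc⟩ := rank_lt N' N' N' hN'0 rfl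
  have hzero : N' * N' - c • N' = 0 := by
    refine hmin' _ ((hN'inv.mul hm3 hN'inv).sub (hN'inv.smul c)) ?_ ?_ (lt_of_lt_of_le hc hN'r)
    · rw [mul_sub, ← mul_assoc, hpN', mul_smul_comm, hpN']
    · rw [sub_mul, mul_assoc, hN'p, smul_mul_assoc, hN'p]
  have hNN : N' * N' = c • N' := sub_eq_zero.1 hzero
  have hc0 : c ≠ 0 := by
    rintro rfl
    rw [zero_smul] at hNN
    have h1 : IsNilpotent N' := ⟨2, by rw [pow_two, hNN]⟩
    have h2 := Matrix.isNilpotent_trace_of_isNilpotent h1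
    exact htr' h2.eq_zero
  set g := c⁻¹ • N' with hg
  have hginv : 𝒟.Inv2 g := hN'inv.smul _
  have hgg : g * g = g := by
    rw [hg, smul_mul_smul_comm, hNN, smul_smul, mul_assoc, inv_mul_cancel₀ hc0, mul_one]
  have hpg : p * g = g := by rw [hg, mul_smul_comm, hpN']
  have hgp : g * p = g := by rw [hg, smul_mul_assoc, hN'p]
  have hg0 : g ≠ 0 := by
    rw [hg]
    exact smul_ne_zero (inv_ne_zero hc0) hN'0
  have hgr : g.rank ≤ N.rank := by
    have : g = N' * (c⁻¹ • (1 : Matrix V V K)) := by rw [mul_smul_comm, mul_one]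
    rw [this]
    exact (rank_mul_le_left _ _).trans hN'r
  have hgmin : ∀ N₁, 𝒟.Inv2 N₁ → p * N₁ = N₁ → N₁ * p = N₁ → N₁ ≠ 0 → g.rank ≤ N₁.rank := by
    intro N₁ h1 h2 h3 h4
    by_contra h5
    exact h4 (hmin' N₁ h1 h2 h3 (by omega))
  refine ⟨g, hginv, hgg, hpg, hgp, hg0, hgmin, ?_, ?_⟩
  · intro C hC
    set h := g * C * g with hh
    have hhinv : 𝒟.Inv2 h := (hginv.mul hm3 hC).mul hm3 hginv
    have hgh : g * h = h := by rw [hh, ← mul_assoc, ← mul_assoc, hgg]
    have hhg : h * g = h := by rw [hh, mul_assoc, hgg]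
    obtain ⟨c', hc'⟩ := rank_lt g h h hg0 (hhg.trans hgh.symm)
    rw [hhg] at hc'
    have hz : h - c' • g = 0 := by
      refine hmin' _ (hhinv.sub (hginv.smul c')) ?_ ?_ (lt_of_lt_of_le hc' hgr)
      · rw [mul_sub, mul_smul_comm, hpg, hh, ← mul_assoc, ← mul_assoc, hpg]
      · rw [sub_mul, smul_mul_assoc, hgp, hh, mul_assoc, hgp]
    exact ⟨c', sub_eq_zero.1 hz⟩
  · rw [hg, trace_smul]
    exact smul_ne_zero (inv_ne_zero hc0) htr'

/-- class functions are fixed by `τ` -/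
theorem tau_mulVec_of_class (𝒟 : Cfg V ι m) (hm : 2 ≤ m) (d : V → K)
    (hd : ∀ a b, 𝒟.c1 a = 𝒟.c1 b → d a = d b) : 𝒟.tau K *ᵥ d = d := by
  funext a
  simp only [mulVec, dotProduct]
  have h4 : ∀ b, 𝒟.tau K a b * d b = 𝒟.tau K b a * d a := by
    intro b
    rw [𝒟.tau_char_two (by omega), 𝒟.tau_char_two (by omega)]
    by_cases hab : 𝒟.c1 a = 𝒟.c1 b
    · rw [if_pos hab, if_pos hab.symm, hd a b hab]
    · rw [if_neg hab, if_neg (fun h => hab h.symm), zero_mul, zero_mul]
  rw [Finset.sum_congr rfl fun b _ => h4 b, ← Finset.sum_mul]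
  have h5 : ∑ b, 𝒟.tau K b a = 1 := by
    simp only [𝒟.tau_char_two (show 2 ≤ m by omega)]
    rw [← Finset.sum_filter, Finset.sum_const, nsmul_eq_mul, mul_one]
    exact odd_cast (𝒟.cls_odd (by omega) a)
  rw [h5, one_mul]

/-- **the symplectic contradiction**: `q` minimal idempotent in a configuration, nontrivial;
then `qᵀ B q = 0` for all invariant `B`. -/
theorem no_sympl (𝒟 : Cfg V ι (m + 1)) (hm : 2 ≤ m) {q : Matrix V V K} (hq : 𝒟.Inv2 q)
    (hqq : q * q = q) (hτ : 𝒟.tau K * q = 0) (hone : ∀ C, 𝒟.Inv2 C → ∃ c : K, q * C * q = c • q)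
    (htr : q.trace ≠ 0) {B : Matrix V V K} (hB : 𝒟.Inv2 B) : qᵀ * B * q = 0 := by
  have hm3 : 3 ≤ m + 1 := by omega
  by_contra hC0
  set C := qᵀ * B * q with hC
  have hqt : 𝒟.Inv2 qᵀ := hq.transpose (by omega)
  have hqqt : qᵀ * qᵀ = qᵀ := by rw [← transpose_mul, hqq]
  have hCinv : 𝒟.Inv2 C := (hqt.mul hm3 hB).mul hm3 hq
  have hqC : qᵀ * C = C := by rw [hC, ← mul_assoc, ← mul_assoc, hqqt]
  have hCq : C * q = C := by rw [hC, mul_assoc, hqq]
  obtain ⟨a, b, hab⟩ : ∃ a b, C a b ≠ 0 := by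
    by_contra hcon
    push Not at hcon
    exact hC0 (by ext a b; exact hcon a b)
  set B' : Matrix V V K := (𝒟.ind K (𝒟.c2 a b))ᵀ with hB'
  have hB'inv : 𝒟.Inv2 B' := (𝒟.inv2_ind _).transpose (by omega)
  have htrC : (C * B').trace ≠ 0 := by
    rw [hB', 𝒟.trace_mul_ind hCinv, odd_cast (𝒟.pairs_odd hm a b), one_mul]
    exact hab
  set N := q * B' * qᵀ with hN
  have hNinv : 𝒟.Inv2 N := (hq.mul hm3 hB'inv).mul hm3 hqt
  have hqN : q * N = N := by rw [hN, ← mul_assoc, ← mul_assoc, hqq]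
  have hNq : N * qᵀ = N := by rw [hN, mul_assoc, hqqt]
  have htrNC : (N * C).trace ≠ 0 := by
    have h1 : (N * C).trace = (C * B').trace := by
      rw [hN, mul_assoc (q * B'), hqC, mul_assoc, trace_mul_comm, mul_assoc, hCq,
        trace_mul_comm]
    rw [h1]; exact htrC
  have hN0 : N ≠ 0 := by
    intro h; rw [h, zero_mul, trace_zero] at htrNC; exact htrNC rfl
  -- `q W q` scalar for all W with `q W = W`, `W q = W`
  have hsc : ∀ W, 𝒟.Inv2 W → q * W = W → W * q = W → ∃ c : K, W = c • q := by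
    intro W h1 h2 h3
    obtain ⟨c, hc⟩ := hone W h1
    exact ⟨c, by rw [← hc, h2, h3]⟩
  have hsct : ∀ W, 𝒟.Inv2 W → qᵀ * W = W → W * qᵀ = W → ∃ c : K, W = c • qᵀ := by
    intro W h1 h2 h3
    obtain ⟨c, hc⟩ := hsc Wᵀ (h1.transpose (by omega))
      (by rw [← transpose_transpose q, ← transpose_mul, h3])
      (by rw [← transpose_transpose q, ← transpose_mul, h2])
    exact ⟨c, by rw [← transpose_transpose W, hc, transpose_smul]⟩
  obtain ⟨l, hl⟩ := hsc (N * C) (hNinv.mul hm3 hCinv) (by rw [← mul_assoc, hqN])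
    (by rw [mul_assoc, hCq])
  obtain ⟨l', hl'⟩ := hsct (C * N) (hCinv.mul hm3 hNinv) (by rw [← mul_assoc, hqC])
    (by rw [mul_assoc, hNq])
  have hl0 : l ≠ 0 := by
    rintro rfl
    rw [hl, zero_smul, trace_zero] at htrNC
    exact htrNC rfl
  have hll : l' = l := by
    have h1 : (C * N).trace = (N * C).trace := trace_mul_comm _ _
    rw [hl, hl', trace_smul, trace_smul, trace_transpose, smul_eq_mul, smul_eq_mul] at h1
    exact mul_right_cancel₀ htr h1
  have hCuniq : ∀ C', 𝒟.Inv2 C' → qᵀ * C' = C' → C' * q = C' → ∃ c : K, C' = c • C := by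
    intro C' h1 h2 h3
    obtain ⟨μ, hμ⟩ := hsct (C' * N) (h1.mul hm3 hNinv) (by rw [← mul_assoc, h2])
      (by rw [mul_assoc, hNq])
    refine ⟨l⁻¹ * μ, ?_⟩
    have h4 : C' * N * C = l • C' := by rw [mul_assoc, hl, mul_smul_comm, h3]
    rw [hμ, smul_mul_assoc, hqC] at h4
    rw [mul_smul, h4, smul_smul, inv_mul_cancel₀ hl0, one_smul]
  have hNuniq : ∀ N', 𝒟.Inv2 N' → q * N' = N' → N' * qᵀ = N' → ∃ c : K, N' = c • N := by
    intro N' h1 h2 h3
    obtain ⟨μ, hμ⟩ := hsc (N' * C) (h1.mul hm3 hCinv) (by rw [← mul_assoc, h2])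
      (by rw [mul_assoc, hCq])
    refine ⟨l⁻¹ * μ, ?_⟩
    have h4 : N' * C * N = l • N' := by rw [mul_assoc, hl', hll, mul_smul_comm, h3]
    rw [hμ, smul_mul_assoc, hqN] at h4
    rw [mul_smul, h4, smul_smul, inv_mul_cancel₀ hl0, one_smul]
  obtain ⟨α, hα⟩ := hCuniq Cᵀ (hCinv.transpose (by omega))
    (by rw [← transpose_mul, hCq]) (by
      conv_lhs => rw [← transpose_transpose q]
      rw [← transpose_mul, hqC])
  have hCs : Cᵀ = C := scalar_eq_one hC0 hα
  obtain ⟨β, hβ⟩ := hNuniq Nᵀ (hNinv.transpose (by omega))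
    (by
      conv_lhs => rw [← transpose_transpose q]
      rw [← transpose_mul, hNq]) (by rw [← transpose_mul, hqN])
  have hNs : Nᵀ = N := scalar_eq_one hN0 hβ
  have hCs' : ∀ a b, C a b = C b a := fun a b => congrFun (congrFun hCs b) a
  have hNs' : ∀ a b, N a b = N b a := fun a b => congrFun (congrFun hNs b) a
  -- the diagonal of `C` vanishes
  have hdiag : ∀ a, C a a = 0 := by
    intro a
    have h1 : C a a = ∑ b, ∑ c, q b a * C b c * q c a := by
      have h2 : C = qᵀ * (C * q) := by rw [hCq, hqC]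
      conv_lhs => rw [h2]
      simp only [Matrix.mul_apply, transpose_apply, Finset.mul_sum]
      refine Finset.sum_congr rfl fun b _ => Finset.sum_congr rfl fun c _ => ?_
      ring
    rw [h1, sum_symm _ (fun b c => by rw [hCs' b c]; ring)]
    obtain ⟨s, hs⟩ : ∃ s : K → K, ∀ t, s t * s t = t := by
      have h : ∀ t : K, ∃ z : K, z ^ 2 = t := fun t =>
        IsAlgClosed.exists_pow_nat_eq t (by norm_num)
      choose s hs using h
      exact ⟨s, fun t => by rw [← pow_two, hs]⟩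
    set d : V → K := fun b => s (C b b) with hd
    have hdcls : 𝒟.tau K *ᵥ d = d := by
      refine tau_mulVec_of_class 𝒟 (by omega) d fun b c hbc => ?_
      simp only [hd]
      rw [hCinv _ _ _ _ (𝒟.c2_diag (by omega) hbc)]
    have h3 : ∑ b, q b a * C b b * q b a = (∑ b, d b * q b a) ^ 2 := by
      rw [CharTwo.sum_sq]
      refine Finset.sum_congr rfl fun b _ => ?_
      rw [hd]
      simp only
      rw [mul_pow, pow_two (s _), hs]
      ring
    rw [h3]
    have h4 : ∑ b, d b * q b a = 0 := by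
      have h5 : ∑ b, d b * q b a = d ⬝ᵥ (q *ᵥ Pi.single a 1) := by
        simp [dotProduct]
      have h6 : (𝒟.tau K *ᵥ d) ⬝ᵥ (q *ᵥ Pi.single a 1) =
          d ⬝ᵥ ((𝒟.tau K * q) *ᵥ Pi.single a 1) := by
        rw [← mulVec_mulVec, dotProduct_mulVec d]
        have hτt : (𝒟.tau K)ᵀ = 𝒟.tau K := 𝒟.tau_transpose
        conv_rhs => rw [← hτt]
        rw [vecMul_transpose]
      rw [h5, ← hdcls, h6, hτ, zero_mulVec, dotProduct_zero]
    rw [h4]
    ring
  apply htrNC
  have h1 : (N * C).trace = ∑ a, ∑ b, N a b * C b a := by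
    simp [Matrix.trace, Matrix.mul_apply]
  rw [h1, sum_symm _ (fun a b => by rw [hNs' a b, hCs' b a])]
  exact Finset.sum_eq_zero fun a _ => by rw [hdiag, mul_zero]

/-- **DBL** -/
theorem dbl : DblStmt := by
  intro V ι _ _ _ m 𝒞 hm K _ _ _ A hA hAn hA0
  obtain ⟨k, rfl⟩ : ∃ k, m = k + 1 := ⟨m - 1, by omega⟩
  have hm3 : 3 ≤ k + 1 + 1 := by omega
  have hgood := 𝒞.good_of_char_two (by omega) K
  obtain ⟨a, b, hab⟩ : ∃ a b, A a b ≠ 0 := by
    by_contra hcon
    push Not at hcon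
    exact hA0 (by ext a b; exact hcon a b)
  set ρ := 𝒞.c1 a with hρ
  set D := 𝒞.dg K ρ with hD
  set τ := 𝒞.tau K with hτdef
  have hDinv : 𝒞.Inv2 D := 𝒞.inv2_dg (by omega) ρ
  have hDD : D * D = D := 𝒞.dg_mul_dg ρ
  have hτinv : 𝒞.Inv2 τ := 𝒞.inv2_tau (by omega)
  have hττ : τ * τ = τ := 𝒞.tau_mul_tau hgood
  have hDτ : D * τ = τ * D := hDinv.tau_comm (by omega) hgood
  have hAτ : A * τ = 0 := (𝒞.non_iff hgood A).1 hAn
  have hτA : τ * A = 0 := (hA.non_iff' (by omega) hgood).1 hAn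
  set p := D - D * τ with hp
  have hpinv : 𝒞.Inv2 p := hDinv.sub (hDinv.mul hm3 hτinv)
  have hpτ : p * τ = 0 := by rw [hp, sub_mul, mul_assoc, hττ, sub_self]
  have hDp : D * p = p := by rw [hp, mul_sub, ← mul_assoc, hDD]
  have hpD : p * D = p := by
    rw [hp, sub_mul, mul_assoc, ← hDτ, ← mul_assoc, hDD]
  have hpp : p * p = p := by
    conv_lhs => rw [show p * p = p * (D - D * τ) from rfl]
    rw [mul_sub, ← mul_assoc, hpD, hpτ, sub_zero]
  -- a nonzero element of `pAp` of rank at most the rank of `A`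
  set B : Matrix V V K := (𝒞.ind K (𝒞.c2 a b))ᵀ with hB
  have hBinv : 𝒞.Inv2 B := (𝒞.inv2_ind _).transpose (by omega)
  set N := D * A * B * D with hN
  have hNinv : 𝒞.Inv2 N := ((hDinv.mul hm3 hA).mul hm3 hBinv).mul hm3 hDinv
  have hBrow : B * D = B := by
    ext u v
    rw [hD, 𝒞.mul_dg_apply]
    split_ifs with h
    · rfl
    · rw [hB, transpose_apply, 𝒞.ind_apply, if_neg]
      intro h'
      exact h ((𝒞.c1_of_c2 (by omega) h').1.trans hρ.symm)
  have hNtr : N.trace ≠ 0 := by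
    have h1 : N.trace = (A * B).trace := by
      rw [hN, trace_mul_comm, ← mul_assoc, ← mul_assoc, hDD, mul_assoc, trace_mul_comm, mul_assoc,
        hBrow]
    rw [h1, hB, 𝒞.trace_mul_ind hA, odd_cast (𝒞.pairs_odd (by omega) a b), one_mul]
    exact hab
  have hN0 : N ≠ 0 := by
    intro h; rw [h, trace_zero] at hNtr; exact hNtr rfl
  have hpN : p * N = N := by
    rw [hp, sub_mul, hN]
    have h1 : D * (D * A * B * D) = D * A * B * D := by
      simp only [← mul_assoc, hDD]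
    have h2 : D * τ * (D * A * B * D) = 0 := by
      rw [hDτ]
      have h3 : τ * D * (D * A * B * D) = D * (τ * A) * B * D := by
        simp only [← mul_assoc]
        rw [mul_assoc τ D D, hDD, hDτ]
      rw [h3, hτA, mul_zero, zero_mul, zero_mul]
    rw [h1, h2, sub_zero]
  have hNp : N * p = N := by
    rw [hp, mul_sub, hN]
    have h1 : D * A * B * D * D = D * A * B * D := by rw [mul_assoc _ D D, hDD]
    have h2 : D * A * B * D * (D * τ) = 0 := by
      rw [← mul_assoc, h1, mul_assoc _ D τ, hDτ, ← mul_assoc, mul_assoc _ B τ,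
        hBinv.tau_comm (by omega) hgood, ← mul_assoc, mul_assoc D A τ, hAτ]
      simp
    rw [h1, h2, sub_zero]
  have hNr : N.rank ≤ A.rank := by
    rw [hN, mul_assoc, mul_assoc]
    refine (rank_mul_le_right _ _).trans ?_
    exact rank_mul_le_left _ _
  have hp0 : p ≠ 0 := by
    intro h
    apply hN0
    rw [← hpN, h, zero_mul]
  obtain ⟨e, heinv, hee, hpe, hep, he0, hemin, -, hetr⟩ := idem 𝒞 (by omega) hpinv hpp hp0
  have her : e.rank ≤ A.rank := (hemin N hNinv hpN hNp hN0).trans hNr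
  have heτ : e * τ = 0 := by rw [← hep, mul_assoc, hpτ, mul_zero]
  have hen : 𝒞.Non e := (𝒞.non_iff hgood e).2 heτ
  have hDe : D * e = e := by rw [← hpe, ← mul_assoc, hDp]
  have heX : ∀ a b, e a b ≠ 0 → 𝒞.c1 a = ρ := by
    intro u v huv
    by_contra h
    apply huv
    rw [← hDe, hD, 𝒞.dg_mul_apply, if_neg h]
  obtain ⟨x, hx, B₁, hB₁, hne⟩ := caseB 𝒞 (by omega) heinv hee hen heX he0
  -- `e x x ≠ 0`
  have hexx : e x x ≠ 0 := by
    intro h
    apply hetr
    rw [Matrix.trace]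
    refine Finset.sum_eq_zero fun u _ => ?_
    rw [Matrix.diag_apply]
    by_contra h1
    have h2 := heX u u h1
    rw [heinv u u x x (𝒞.c2_diag (by omega) (h2.trans hx.symm))] at h1
    exact h1 h
  set 𝒟 := 𝒞.fix x with h𝒟
  set t := 𝒟.tau K with ht
  have hgood' := 𝒟.good_of_char_two (by omega) K
  have heinv' : 𝒟.Inv2 e := inv2_fix 𝒞 (by omega) heinv x
  have hcomm : e * t = t * e := heinv'.tau_comm (by omega) hgood'
  have htt : t * t = t := 𝒟.tau_mul_tau hgood'
  set q := e - e * t with hq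
  have hqinv : 𝒟.Inv2 q := heinv'.sub (heinv'.mul (by omega) (𝒟.inv2_tau (by omega)))
  have heq : e * q = q := by rw [hq, mul_sub, ← mul_assoc, hee]
  have hqe : q * e = q := by
    rw [hq, sub_mul, hee, mul_assoc, ← hcomm, ← mul_assoc, hee]
  have hqt : q * t = 0 := by rw [hq, sub_mul, mul_assoc, htt, sub_self]
  have hqq : q * q = q := by
    conv_lhs => rw [show q * q = q * (e - e * t) from rfl]
    rw [mul_sub, ← mul_assoc, hqe, hqt, sub_zero]
  have htq : t * q = 0 := by rw [← hqinv.tau_comm (by omega) hgood', hqt]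
  have hq0 : q ≠ 0 := by
    intro h
    apply hne
    rw [h, mul_zero]
  obtain ⟨g, hginv, hgg, hqg, hgq, hg0, hgmin, hgone, hgtr⟩ := idem 𝒟 (by omega) hqinv hqq hq0
  have hgt : g * t = 0 := by rw [← hgq, mul_assoc, hqt, mul_zero]
  refine ⟨x, g, hginv, (𝒟.non_iff hgood' g).2 hgt, hg0, ?_⟩
  have hne' : g ≠ q := by
    rintro rfl
    exact hne (no_sympl 𝒟 (by omega) hqinv hqq htq hgone hgtr hB₁)
  have h1 : g.rank ≤ (q - g).rank := by
    refine hgmin _ (hqinv.sub hginv) ?_ ?_ (sub_ne_zero.2 hne'.symm)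
    · rw [mul_sub, hqq, hqg]
    · rw [sub_mul, hqq, hgq]
  have h2 := rank_idem hqq hgg hqg hgq
  have h3 : 0 < (e - q).rank := by
    refine rank_pos_of_ne_zero fun h => hexx ?_
    have h4 : e - q = e * t := by rw [hq]; abel
    rw [h4] at h
    have h5 := congrFun (congrFun h x) x
    rw [Matrix.mul_apply, Finset.sum_eq_single x] at h5
    · rw [ht, 𝒟.tau_char_two (by omega), if_pos rfl, mul_one] at h5
      exact h5
    · intro c _ hc
      rw [ht, 𝒟.tau_char_two (by omega), if_neg, mul_zero]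
      intro h6
      rw [h𝒟, 𝒞.fix_c1 (by omega), 𝒞.fix_c1 (by omega)] at h6
      exact hc ((𝒞.eq_of_c2 (by omega) h6).2 rfl).symm
    · simp
  have h4 := rank_idem hee hqq heq hqe
  omega

end Vale.Agent.P319.H916
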