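import Vale.Agent.P319.SC.Bas

/-! P319, block DBL, case b, part 1: the twisted product `mu` on the image of an idempotent,
ideals, the ideals `W_x`, stability of annihilators. -/

namespace Vale.Agent.P319.H916

open Finset Matrix Vale.Agent.P319.SC

set_option linter.all false

variable {V ι : Type} [Fintype V] [DecidableEq V] [DecidableEq ι] {m : ℕ}
variable {K : Type} [Field K]

section linear

/-- the image of the idempotent `e` -/
def Mim (e : Matrix V V K) : Submodule K (V → K) where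
  carrier := {v | e *ᵥ v = v}
  add_mem' := by
    intro a b ha hb
    simp only [Set.mem_setOf_eq] at *
    rw [mulVec_add, ha, hb]
  zero_mem' := by simp
  smul_mem' := by
    intro c a ha
    simp only [Set.mem_setOf_eq] at *
    rw [mulVec_smul, ha]

theorem mem_Mim {e : Matrix V V K} {v : V → K} : v ∈ Mim e ↔ e *ᵥ v = v := Iff.rfl

theorem mulVec_mem_Mim {e : Matrix V V K} (he : e * e = e) (v : V → K) : e *ᵥ v ∈ Mim e := by
  rw [mem_Mim, mulVec_mulVec, he]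

/-- the twisted product -/
def mu (e : Matrix V V K) (v w : V → K) : V → K := (e.map fun t => t ^ 2) *ᵥ (v * w)

theorem mu_apply (e : Matrix V V K) (v w : V → K) (a : V) :
    mu e v w a = ∑ b, (e a b) ^ 2 * (v b * w b) := rfl

theorem mu_comm (e : Matrix V V K) (v w : V → K) : mu e v w = mu e w v := by
  rw [mu, mu, mul_comm v w]

theorem mu_add_left (e : Matrix V V K) (v v' w : V → K) :
    mu e (v + v') w = mu e v w + mu e v' w := by
  rw [mu, mu, mu, add_mul, mulVec_add]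

theorem mu_add_right (e : Matrix V V K) (v w w' : V → K) :
    mu e v (w + w') = mu e v w + mu e v w' := by
  rw [mu, mu, mu, mul_add, mulVec_add]

theorem mu_neg_right (e : Matrix V V K) (v w : V → K) :
    mu e v (-w) = -mu e v w := by
  rw [mu, mu, mul_neg, mulVec_neg]

theorem mu_smul_left (e : Matrix V V K) (c : K) (v w : V → K) :
    mu e (c • v) w = c • mu e v w := by
  rw [mu, mu, smul_mul_assoc, mulVec_smul]

theorem mu_sum_left (e : Matrix V V K) {α : Type*} (s : Finset α) (v : α → V → K) (w : V → K) :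
    mu e (∑ i ∈ s, v i) w = ∑ i ∈ s, mu e (v i) w := by
  classical
  induction s using Finset.induction_on with
  | empty => simp [mu]
  | insert a s ha ih => rw [Finset.sum_insert ha, Finset.sum_insert ha, mu_add_left, ih]

theorem mu_sum_right (e : Matrix V V K) {α : Type*} (s : Finset α) (v : α → V → K) (w : V → K) :
    mu e w (∑ i ∈ s, v i) = ∑ i ∈ s, mu e w (v i) := by
  rw [mu_comm, mu_sum_left]
  exact Finset.sum_congr rfl fun i _ => mu_comm _ _ _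

variable [CharP K 2]

theorem mu_sq (e : Matrix V V K) (v : V → K) : mu e v v = (e *ᵥ v) * (e *ᵥ v) := by
  funext a
  rw [mu_apply, Pi.mul_apply, ← pow_two, mulVec, dotProduct, CharTwo.sum_sq]
  refine Finset.sum_congr rfl fun b _ => ?_
  ring

theorem mu_self {e : Matrix V V K} {v : V → K} (hv : v ∈ Mim e) : mu e v v = v * v := by
  rw [mu_sq, mem_Mim.1 hv]

theorem sq_inj {u u' : V → K} (h : u * u = u' * u') : u = u' := by
  funext a
  have h1 := congrFun h a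
  simp only [Pi.mul_apply] at h1
  rcases mul_self_eq_mul_self_iff.1 h1 with h2 | h2
  · exact h2
  · rw [h2, CharTwo.neg_eq]

variable [IsAlgClosed K]

theorem exists_sqrt (v : V → K) : ∃ u : V → K, u * u = v := by
  have h : ∀ a, ∃ z : K, z ^ 2 = v a := fun a => IsAlgClosed.exists_pow_nat_eq (v a) (by norm_num)
  choose u hu using h
  exact ⟨u, by funext a; rw [Pi.mul_apply, ← pow_two, hu]⟩

/-- the space of the squares of the elements of `I` -/
def sqm (I : Submodule K (V → K)) : Submodule K (V → K) where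
  carrier := {z | ∃ u ∈ I, z = u * u}
  add_mem' := by
    rintro a b ⟨u, hu, rfl⟩ ⟨v, hv, rfl⟩
    refine ⟨u + v, I.add_mem hu hv, ?_⟩
    funext c
    simp only [Pi.mul_apply, Pi.add_apply]
    have : (2 : K) = 0 := CharTwo.two_eq_zero
    linear_combination -(u c * v c) * this
  zero_mem' := ⟨0, I.zero_mem, by simp⟩
  smul_mem' := by
    rintro c a ⟨u, hu, rfl⟩
    obtain ⟨z, hz⟩ := IsAlgClosed.exists_pow_nat_eq c (show 0 < 2 by norm_num)
    refine ⟨z • u, I.smul_mem _ hu, ?_⟩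
    funext b
    simp only [Pi.smul_apply, Pi.mul_apply, smul_eq_mul, ← hz]
    ring

theorem mem_sqm {I : Submodule K (V → K)} {z : V → K} : z ∈ sqm I ↔ ∃ u ∈ I, z = u * u := Iff.rfl

theorem mu_mem {e : Matrix V V K} (he : e * e = e) (v w : V → K) : mu e v w ∈ sqm (Mim e) := by
  obtain ⟨s, hs⟩ := exists_sqrt (v * w)
  refine ⟨e *ᵥ s, mulVec_mem_Mim he s, ?_⟩
  rw [← mu_sq, mu, mu, hs]

/-- ideals of the twisted product -/
def IsIdeal (e : Matrix V V K) (I : Submodule K (V → K)) : Prop :=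
  I ≤ Mim e ∧ ∀ w ∈ Mim e, ∀ v ∈ I, mu e w v ∈ sqm I

theorem isIdeal_Mim {e : Matrix V V K} (he : e * e = e) : IsIdeal e (Mim e) :=
  ⟨le_rfl, fun w _ v _ => mu_mem he w v⟩

theorem IsIdeal.inf {e : Matrix V V K} {I J : Submodule K (V → K)} (hI : IsIdeal e I)
    (hJ : IsIdeal e J) : IsIdeal e (I ⊓ J) := by
  refine ⟨inf_le_left.trans hI.1, fun w hw v hv => ?_⟩
  obtain ⟨u, hu, h1⟩ := hI.2 w hw v hv.1
  obtain ⟨u', hu', h2⟩ := hJ.2 w hw v hv.2
  have h3 : u = u' := sq_inj (h1.symm.trans h2)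
  subst h3
  exact ⟨u, ⟨hu, hu'⟩, h1⟩

theorem IsIdeal.mu_eq_zero {e : Matrix V V K} {I J : Submodule K (V → K)} (hI : IsIdeal e I)
    (hJ : IsIdeal e J) (h : I ⊓ J = ⊥) {v w : V → K} (hv : v ∈ I) (hw : w ∈ J) :
    mu e v w = 0 := by
  obtain ⟨u, hu, h1⟩ := hJ.2 v (hI.1 hv) w hw
  obtain ⟨u', hu', h2⟩ := hI.2 w (hJ.1 hw) v hv
  rw [mu_comm] at h2
  have h3 : u = u' := sq_inj (h1.symm.trans h2)
  subst h3
  have h4 : u ∈ I ⊓ J := ⟨hu', hu⟩
  rw [h, Submodule.mem_bot] at h4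
  rw [h1, h4, zero_mul]

end linear

section config

variable [CharP K 2]

theorem odd_cast {n : ℕ} (h : Odd n) : (n : K) = 1 := by
  obtain ⟨k, hk⟩ := h
  rw [hk]
  push_cast
  have : (2 : K) = 0 := CharTwo.two_eq_zero
  rw [this, zero_mul, zero_add]

/-- the exchange of the sums over the class of a point and over the class of a pair -/
theorem swap_sum (𝒟 : Cfg V ι (m + 1)) (hm : 2 ≤ m) (E : V → V → V → K)
    (hE : ∀ a c b a' c' b', 𝒟.c3 a c b = 𝒟.c3 a' c' b' → E a c b = E a' c' b') (a c b' : V) :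
    ∑ b, E a c b * 𝒟.tau K b b' =
      ∑ p ∈ univ.filter (fun p : V × V => 𝒟.c2 p.1 p.2 = 𝒟.c2 a c), E p.1 p.2 b' := by
  set P := univ.filter (fun p : V × V => 𝒟.c2 p.1 p.2 = 𝒟.c2 a c) with hP
  have hF : ∀ p ∈ P, ∑ b, E p.1 p.2 b * 𝒟.tau K b b' = ∑ b, E a c b * 𝒟.tau K b b' := by
    intro p hp
    simp only [P, mem_filter, mem_univ, true_and] at hp
    obtain ⟨σ, hσ⟩ := 𝒟.ext2 (by omega) hp
    rw [← Equiv.sum_comp σ (fun b => E a c b * 𝒟.tau K b b')]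
    refine Finset.sum_congr rfl fun b _ => ?_
    rw [hE _ _ _ _ _ _ (hσ b)]
    congr 1
    have h1 : 𝒟.c1 b = 𝒟.c1 (σ b) :=
      (𝒟.c1_of_c2 (by omega) (𝒟.c3_sub (by omega) (hσ b)).2.1).2
    simp only [Cfg.tau, h1]
  have hG : ∀ b, 𝒟.c1 b = 𝒟.c1 b' → ∑ p ∈ P, E p.1 p.2 b = ∑ p ∈ P, E p.1 p.2 b' := by
    intro b hb
    have h1 : ∀ b, ∑ p ∈ P, E p.1 p.2 b =
        ∑ x, ∑ y, if 𝒟.c2 x y = 𝒟.c2 a c then E x y b else 0 := by
      intro b
      rw [hP, Finset.sum_filter, ← Finset.univ_product_univ, Finset.sum_product]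
    rw [h1, h1]
    obtain ⟨σ, hσ⟩ := 𝒟.ext1 (by omega) hb
    rw [← Equiv.sum_comp σ (fun x => ∑ y, if 𝒟.c2 x y = 𝒟.c2 a c then E x y b' else 0)]
    refine Finset.sum_congr rfl fun x _ => ?_
    obtain ⟨σ', hσ'⟩ := 𝒟.ext2 (by omega) (hσ x)
    rw [← Equiv.sum_comp σ' (fun y => if 𝒟.c2 (σ x) y = 𝒟.c2 a c then E (σ x) y b' else 0)]
    refine Finset.sum_congr rfl fun y _ => ?_
    have h2 := hσ' y
    rw [(𝒟.c3_sub (by omega) h2).2.2, hE _ _ _ _ _ _ (𝒟.c3_rot (by omega) h2)]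
  have h1 : ∑ p ∈ P, ∑ b, E p.1 p.2 b * 𝒟.tau K b b' = ∑ b, E a c b * 𝒟.tau K b b' := by
    rw [Finset.sum_congr rfl hF, Finset.sum_const, nsmul_eq_mul,
      odd_cast (𝒟.pairs_odd hm a c), one_mul]
  rw [← h1, Finset.sum_comm]
  have h2 : ∀ b, ∑ p ∈ P, E p.1 p.2 b * 𝒟.tau K b b' =
      𝒟.tau K b b' * ∑ p ∈ P, E p.1 p.2 b' := by
    intro b
    rw [← Finset.sum_mul, mul_comm]
    rw [𝒟.tau_char_two (by omega)]
    split_ifs with h
    · rw [hG b h]
    · rw [zero_mul, zero_mul]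
  rw [Finset.sum_congr rfl fun b _ => h2 b, ← Finset.sum_mul]
  have h3 : ∑ b, 𝒟.tau K b b' = 1 := by
    simp only [𝒟.tau_char_two (show 2 ≤ m + 1 by omega)]
    rw [← Finset.sum_filter, Finset.sum_const, nsmul_eq_mul, mul_one]
    exact odd_cast (𝒟.cls_odd (by omega) b')
  rw [h3, one_mul]

variable [IsAlgClosed K]

/-- `τ_x` -/
noncomputable abbrev tx (𝒞 : Cfg V ι (m + 1)) (K : Type) [Field K] (x : V) : Matrix V V K :=
  (𝒞.fix x).tau K

/-- `q_x` -/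
noncomputable abbrev qx (𝒞 : Cfg V ι (m + 1)) (e : Matrix V V K) (x : V) : Matrix V V K :=
  e - e * tx 𝒞 K x

theorem inv2_fix (𝒞 : Cfg V ι (m + 1)) (hm : 2 ≤ m) {e : Matrix V V K} (he : 𝒞.Inv2 e) (x : V) :
    (𝒞.fix x).Inv2 e := by
  intro a b a' b' h
  rw [𝒞.fix_c2 hm, 𝒞.fix_c2 hm] at h
  exact he _ _ _ _ (𝒞.c3_sub (by omega) h).2.2

/-- the ideal `W_x` -/
def Wx (𝒞 : Cfg V ι (m + 1)) (e : Matrix V V K) (x : V) : Submodule K (V → K) where
  carrier := {v | e *ᵥ v = v ∧ tx 𝒞 K x *ᵥ v = 0}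
  add_mem' := by
    rintro a b ⟨h1, h2⟩ ⟨h3, h4⟩
    exact ⟨by rw [mulVec_add, h1, h3], by rw [mulVec_add, h2, h4, add_zero]⟩
  zero_mem' := by simp
  smul_mem' := by
    rintro c a ⟨h1, h2⟩
    exact ⟨by rw [mulVec_smul, h1], by rw [mulVec_smul, h2, smul_zero]⟩

theorem tx_comm (𝒞 : Cfg V ι (m + 1)) (hm : 3 ≤ m) {e : Matrix V V K} (he : 𝒞.Inv2 e) (x : V) :
    e * tx 𝒞 K x = tx 𝒞 K x * e :=
  (inv2_fix 𝒞 (by omega) he x).tau_comm (by omega) ((𝒞.fix x).good_of_char_two (by omega) K)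

theorem tx_idem (𝒞 : Cfg V ι (m + 1)) (hm : 3 ≤ m) (x : V) :
    tx 𝒞 K x * tx 𝒞 K x = tx 𝒞 K x :=
  (𝒞.fix x).tau_mul_tau ((𝒞.fix x).good_of_char_two (by omega) K)

theorem tx_sq (𝒞 : Cfg V ι (m + 1)) (hm : 3 ≤ m) (x : V) (u : V → K) :
    tx 𝒞 K x *ᵥ (u * u) = (tx 𝒞 K x *ᵥ u) * (tx 𝒞 K x *ᵥ u) := by
  rw [← mu_sq, mu]
  congr 1
  ext a b
  simp only [Matrix.map_apply]
  rw [tx, (𝒞.fix x).tau_char_two (by omega)]
  split_ifs <;> simp

theorem isIdeal_Wx (𝒞 : Cfg V ι (m + 1)) (hm : 3 ≤ m) {e : Matrix V V K} (he : 𝒞.Inv2 e)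
    (hee : e * e = e) (x : V)
    (hx : ∀ B : Matrix V V K, (𝒞.fix x).Inv2 B → (qx 𝒞 e x)ᵀ * B * qx 𝒞 e x = 0) :
    IsIdeal e (Wx 𝒞 e x) := by
  refine ⟨fun v hv => hv.1, fun w hw v hv => ?_⟩
  obtain ⟨u, hu, h1⟩ := mu_mem hee w v
  refine ⟨u, ⟨hu, ?_⟩, h1⟩
  have h2 : tx 𝒞 K x *ᵥ mu e w v = 0 := by
    set τ := tx 𝒞 K x with hτ
    have hcomm : (e.map fun t => t ^ 2) * τ = τ * (e.map fun t => t ^ 2) :=
      tx_comm 𝒞 hm (he.map _) x
    rw [mu, mulVec_mulVec, ← hcomm]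
    funext a
    set D : V → K := fun b => ((e.map fun t => t ^ 2) * τ) a b with hD
    have hDinv : (𝒞.fix x).Inv2 (diagonal D) := by
      intro b c b' c' h
      rw [diagonal_apply, diagonal_apply]
      refine if_congr ((𝒞.fix x).eq_of_c2 (by omega) h) ?_ rfl
      have h3 := ((𝒞.fix x).c1_of_c2 (by omega) h).1
      simp only [D]
      rw [hτ, tx, (𝒞.fix x).mul_tau_apply, (𝒞.fix x).mul_tau_apply, h3]
    have h4 : (((e.map fun t => t ^ 2) * τ) *ᵥ (w * v)) a = w ⬝ᵥ (diagonal D *ᵥ v) := by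
      simp only [mulVec, dotProduct, Pi.mul_apply, D]
      refine Finset.sum_congr rfl fun b _ => ?_
      rw [Finset.sum_eq_single b]
      · rw [diagonal_apply_eq]; ring
      · intro c _ hc
        rw [diagonal_apply_ne _ hc.symm, zero_mul]
      · simp
    rw [h4]
    have hw' : w = qx 𝒞 e x *ᵥ w + τ *ᵥ w := by
      rw [qx, sub_mulVec, mem_Mim.1 hw, tx_comm 𝒞 hm he x, ← mulVec_mulVec, mem_Mim.1 hw]
      simp [hτ]
    have hv' : qx 𝒞 e x *ᵥ v = v := by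
      rw [qx, sub_mulVec, hv.1, ← mulVec_mulVec, hv.2, mulVec_zero, sub_zero]
    have h5 : (qx 𝒞 e x *ᵥ w) ⬝ᵥ (diagonal D *ᵥ v) = 0 := by
      have h6 : (qx 𝒞 e x *ᵥ w) ⬝ᵥ (diagonal D *ᵥ (qx 𝒞 e x *ᵥ v)) =
          w ⬝ᵥ (((qx 𝒞 e x)ᵀ * diagonal D * qx 𝒞 e x) *ᵥ v) := by
        rw [← mulVec_mulVec, ← mulVec_mulVec, dotProduct_mulVec w, vecMul_transpose]
      rw [hv', hx _ hDinv, zero_mulVec, dotProduct_zero] at h6
      exact h6
    have h7 : (τ *ᵥ w) ⬝ᵥ (diagonal D *ᵥ v) = 0 := by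
      have h8 : (τ *ᵥ w) ⬝ᵥ (diagonal D *ᵥ v) = w ⬝ᵥ ((τ * diagonal D) *ᵥ v) := by
        rw [← mulVec_mulVec, dotProduct_mulVec w]
        have hτt : τᵀ = τ := (𝒞.fix x).tau_transpose
        conv_rhs => rw [← hτt]
        rw [vecMul_transpose]
      rw [h8, ← hDinv.tau_comm (by omega) ((𝒞.fix x).good_of_char_two (by omega) K),
        ← mulVec_mulVec, hv.2, mulVec_zero, dotProduct_zero]
    conv_lhs => rw [hw']
    rw [add_dotProduct, h5, h7, add_zero]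
    rfl
  rw [h1, tx_sq 𝒞 hm] at h2
  funext a
  have h3 := congrFun h2 a
  simp only [Pi.mul_apply, Pi.zero_apply, mul_self_eq_zero] at h3
  exact h3

/-- the annihilator of `W_x` is stable under `τ_x` -/
theorem ann_stable (𝒞 : Cfg V ι (m + 2)) (hm : 2 ≤ m) {e : Matrix V V K} (he : 𝒞.Inv2 e)
    (hee : e * e = e) (x : V) (v : V → K) (hv : ∀ w ∈ Wx 𝒞 e x, mu e v w = 0) :
    ∀ w ∈ Wx 𝒞 e x, mu e (tx 𝒞 K x *ᵥ v) w = 0 := by
  set τ := tx 𝒞 K x with hτ
  set q := qx 𝒞 e x with hq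
  have hcol : ∀ c : V, (fun b => q b c) ∈ Wx 𝒞 e x := by
    intro c
    have h1 : (fun b => q b c) = q *ᵥ (Pi.single c 1) := by
      funext b
      simp
    rw [h1]
    have h2 : e * q = q := by rw [hq, qx, mul_sub, ← mul_assoc, hee]
    have h3 : τ * q = 0 := by
      rw [hq, qx, mul_sub, ← mul_assoc, ← tx_comm 𝒞 (by omega) he x, mul_assoc,
        tx_idem 𝒞 (by omega) x, sub_self]
    exact ⟨by rw [mulVec_mulVec, h2], by rw [mulVec_mulVec, h3, zero_mulVec]⟩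
  set E : V → V → V → K := fun a c b => (e a b) ^ 2 * q b c with hEdef
  have heX := inv2_fix 𝒞 (by omega) he x
  have hqX : (𝒞.fix x).Inv2 q :=
    heX.sub (heX.mul (by omega) ((𝒞.fix x).inv2_tau (by omega)))
  have hE : ∀ a c b a' c' b', (𝒞.fix x).c3 a c b = (𝒞.fix x).c3 a' c' b' →
      E a c b = E a' c' b' := by
    intro a c b a' c' b' h
    obtain ⟨h1, h2, h3⟩ := (𝒞.fix x).c3_sub (by omega) h
    simp only [E]
    rw [heX _ _ _ _ h2, hqX _ _ _ _ ((𝒞.fix x).c2_swap (by omega) h3)]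
  have hE0 : ∀ a c, ∑ b, E a c b * v b = 0 := by
    intro a c
    have h1 := congrFun (hv _ (hcol c)) a
    rw [mu_apply, Pi.zero_apply] at h1
    rw [← h1]
    refine Finset.sum_congr rfl fun b _ => ?_
    simp only [E]; ring
  have hE1 : ∀ a c, ∑ b, E a c b * (τ *ᵥ v) b = 0 := by
    intro a c
    have h1 : ∑ b, E a c b * (τ *ᵥ v) b = ∑ b', (∑ b, E a c b * τ b b') * v b' := by
      simp only [mulVec, dotProduct, Finset.mul_sum, Finset.sum_mul]
      rw [Finset.sum_comm]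
      refine Finset.sum_congr rfl fun b' _ => Finset.sum_congr rfl fun b _ => ?_
      ring
    rw [h1]
    have h2 : ∀ b', ∑ b, E a c b * τ b b' =
      ∑ p ∈ univ.filter (fun p : V × V => (𝒞.fix x).c2 p.1 p.2 = (𝒞.fix x).c2 a c),
        E p.1 p.2 b' := fun b' => swap_sum (𝒞.fix x) (by omega) E hE a c b'
    simp only [h2, Finset.sum_mul]
    rw [Finset.sum_comm]
    refine Finset.sum_eq_zero fun p _ => hE0 _ _
  intro w hw
  have hw' : w = q *ᵥ w := by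
    rw [hq, qx, sub_mulVec, hw.1, ← mulVec_mulVec, hw.2, mulVec_zero, sub_zero]
  funext a
  rw [mu_apply, Pi.zero_apply]
  have h1 : ∑ b, (e a b) ^ 2 * ((τ *ᵥ v) b * w b) =
      ∑ c, (∑ b, E a c b * (τ *ᵥ v) b) * w c := by
    conv_lhs => rw [hw']
    simp only [Finset.sum_mul]
    rw [Finset.sum_comm]
    refine Finset.sum_congr rfl fun b _ => ?_
    have h2 : (q *ᵥ w) b = ∑ c, q b c * w c := rfl
    rw [h2, Finset.mul_sum, Finset.mul_sum]
    refine Finset.sum_congr rfl fun c _ => ?_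
    simp only [E]; ring
  rw [h1]
  exact Finset.sum_eq_zero fun c _ => by rw [hE1, zero_mul]

/-- a nonzero ideal which meets `W_x` trivially consists of functions fixed by `τ_x` -/
theorem fixed_of_inf_eq_bot (𝒞 : Cfg V ι (m + 2)) (hm : 2 ≤ m) {e : Matrix V V K}
    (he : 𝒞.Inv2 e) (hee : e * e = e) (x : V)
    (hx : ∀ B : Matrix V V K, (𝒞.fix x).Inv2 B → (qx 𝒞 e x)ᵀ * B * qx 𝒞 e x = 0)
    {I : Submodule K (V → K)} (hI : IsIdeal e I) (h : I ⊓ Wx 𝒞 e x = ⊥) {v : V → K}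
    (hv : v ∈ I) : tx 𝒞 K x *ᵥ v = v := by
  have hW := isIdeal_Wx 𝒞 (by omega) he hee x hx
  have h0 : ∀ w ∈ Wx 𝒞 e x, mu e v w = 0 := fun w hw => hI.mu_eq_zero hW h hv hw
  have h1 := ann_stable 𝒞 hm he hee x v h0
  set u := v - tx 𝒞 K x *ᵥ v with hu
  have hvM : e *ᵥ v = v := hI.1 hv
  have huW : u ∈ Wx 𝒞 e x := by
    constructor
    · rw [hu, mulVec_sub, hvM, mulVec_mulVec, tx_comm 𝒞 (by omega) he x, ← mulVec_mulVec, hvM]
    · rw [hu, mulVec_sub, mulVec_mulVec, tx_idem 𝒞 (by omega) x, sub_self]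
  have h2 : mu e u u = 0 := by
    have h3 : mu e u u = mu e v u - mu e (tx 𝒞 K x *ᵥ v) u := by
      conv_lhs => rw [show mu e u u = mu e (v - tx 𝒞 K x *ᵥ v) u from rfl]
      rw [mu, mu, mu, sub_mul, mulVec_sub]
    rw [h3, h0 u huW, h1 u huW, sub_zero]
  rw [mu_self (v := u) huW.1] at h2
  have h4 : u = 0 := sq_inj (by rw [h2, zero_mul])
  rw [hu, sub_eq_zero] at h4
  exact h4.symm

end config

end Vale.Agent.P319.H916
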