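import Vale.Agent.P319.H916.CaseB1

/-! P319, block DBL, case b, part 2: uniformity of the minimal ideals, blocks, the finite group. -/

namespace Vale.Agent.P319.H916

open Finset Matrix Vale.Agent.P319.SC

set_option linter.all false

variable {V ι : Type} [Fintype V] [DecidableEq V] [DecidableEq ι] {m : ℕ}
variable {K : Type} [Field K]

/-- blocks of an invariant symmetric relation inside a class have odd size -/
theorem odd_block (𝒞 : Cfg V ι m) (hm : 2 ≤ m) (Q : V → V → Prop) [∀ a b, Decidable (Q a b)]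
    (hQ : ∀ a b a' b', 𝒞.c2 a b = 𝒞.c2 a' b' → Q a b → Q a' b')
    (hc : ∀ a b, Q a b → 𝒞.c1 a = 𝒞.c1 b) (hs : ∀ a b, Q a b → Q b a) (x : V) (hx : Q x x) :
    Odd (univ.filter fun z => Q x z).card := by
  classical
  have key : (univ.filter fun z => Q x z).card =
      ∑ R ∈ 𝒞.rels (𝒞.c1 x) (𝒞.c1 x), if (∃ z, 𝒞.c2 x z = R ∧ Q x z) then 𝒞.val x R else 0 := by
    rw [Finset.card_eq_sum_card_fiberwise (f := fun z => 𝒞.c2 x z)
      (t := 𝒞.rels (𝒞.c1 x) (𝒞.c1 x))]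
    · refine Finset.sum_congr rfl fun R hR => ?_
      split_ifs with h
      · obtain ⟨z, rfl, hz⟩ := h
        rw [Cfg.val]
        congr 1
        ext y
        simp only [mem_filter, mem_univ, true_and]
        exact ⟨fun h => h.2, fun h => ⟨hQ _ _ _ _ h.symm hz, h⟩⟩
      · rw [Finset.card_eq_zero, Finset.filter_eq_empty_iff]
        intro y hy h1
        simp only [mem_filter, mem_univ, true_and] at hy
        exact h ⟨y, h1, hy⟩
    · intro z hz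
      simp only [coe_filter, mem_univ, true_and, Set.mem_setOf_eq] at hz
      rw [Finset.mem_coe, 𝒞.mem_rels]
      exact ⟨x, z, rfl, (hc _ _ hz).symm, rfl⟩
  rw [key, ← Finset.add_sum_erase _ _ (𝒞.diag_mem x), if_pos ⟨x, rfl, hx⟩, 𝒞.val_diag hm]
  obtain ⟨k, hk⟩ := 𝒞.even_sum hm x
    (fun R => if (∃ z, 𝒞.c2 x z = R ∧ Q x z) then 𝒞.val x R else 0) (by
      intro R hR
      obtain ⟨z, hz, rfl⟩ := 𝒞.exists_of_mem_rels hm x hR
      have e1 : (∃ z', 𝒞.c2 x z' = 𝒞.flip (𝒞.c2 x z) ∧ Q x z') ↔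
          (∃ z', 𝒞.c2 x z' = 𝒞.c2 x z ∧ Q x z') := by
        rw [𝒞.flip_c2 hm]
        constructor
        · rintro ⟨z', h1, h2⟩
          have h3 : Q z x := hQ _ _ _ _ h1 h2
          exact ⟨z, rfl, hs _ _ h3⟩
        · rintro ⟨z', h1, h2⟩
          have h3 : Q z x := hs _ _ (hQ _ _ _ _ h1 h2)
          obtain ⟨σ, hσ⟩ := 𝒞.ext1 hm hz
          exact ⟨σ x, (hσ x).symm, hQ _ _ _ _ (hσ x) h3⟩
      by_cases h : (∃ z', 𝒞.c2 x z' = 𝒞.c2 x z ∧ Q x z')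
      · simp only [if_pos h, if_pos (e1.2 h)]
        exact 𝒞.val_flip' hm x hR
      · simp only [if_neg h, if_neg (fun h' => h (e1.1 h'))])
  exact ⟨k, by rw [hk]; ring⟩

/-- functions on colours as functions on the points, seen from `y` -/
def Ph (𝒞 : Cfg V ι m) (K : Type) [Field K] (y : V) : (ι → K) →ₗ[K] (V → K) :=
  LinearMap.funLeft K K (fun a => 𝒞.c2 y a)

theorem Ph_apply (𝒞 : Cfg V ι m) (y : V) (h : ι → K) (a : V) : Ph 𝒞 K y h a = h (𝒞.c2 y a) := rfl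

variable [CharP K 2] [IsAlgClosed K]

/-- uniformity: ideals of functions constant on the classes over `x` can be moved to `y` -/
theorem isIdeal_move (𝒞 : Cfg V ι m) (hm : 4 ≤ m) {e : Matrix V V K} (he : 𝒞.Inv2 e)
    (hee : e * e = e) {x y : V} (hxy : 𝒞.c1 x = 𝒞.c1 y) (H : Submodule K (ι → K))
    (hI : IsIdeal e (H.map (Ph 𝒞 K x))) : IsIdeal e (H.map (Ph 𝒞 K y)) := by
  have h1 : H.map (Ph 𝒞 K y) ≤ Mim e := by
    rintro _ ⟨h, hh, rfl⟩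
    have h2 : e *ᵥ (Ph 𝒞 K x h) = Ph 𝒞 K x h := hI.1 ⟨h, hh, rfl⟩
    rw [mem_Mim]
    funext a'
    obtain ⟨σ, hσ⟩ := 𝒞.ext1 (by omega) hxy
    obtain ⟨a, rfl⟩ := σ.surjective a'
    obtain ⟨σ', hσ'⟩ := 𝒞.ext2 (by omega) (hσ a)
    have h3 := congrFun h2 a
    rw [Ph_apply] at h3
    rw [Ph_apply, ← hσ a, ← h3]
    simp only [mulVec, dotProduct, Ph_apply]
    rw [← Equiv.sum_comp σ' (fun z => e (σ a) z * h (𝒞.c2 y z))]
    refine Finset.sum_congr rfl fun b _ => ?_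
    obtain ⟨-, h4, h5⟩ := 𝒞.c3_sub (by omega) (hσ' b)
    rw [h4, he _ _ _ _ h5]
  refine ⟨h1, ?_⟩
  rintro w hw _ ⟨h, hh, rfl⟩
  have hcol : ∀ d, mu e (fun b => e b d) (Ph 𝒞 K y h) ∈ sqm (H.map (Ph 𝒞 K y)) := by
    intro d'
    obtain ⟨σ, hσ⟩ := 𝒞.ext1 (by omega) hxy
    obtain ⟨d, rfl⟩ := σ.surjective d'
    obtain ⟨σ', hσ'⟩ := 𝒞.ext2 (by omega) (hσ d)
    have hd : (fun b => e b d) ∈ Mim e := by
      rw [mem_Mim]
      funext b
      have := congrFun (congrFun hee b) d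
      rw [Matrix.mul_apply] at this
      exact this
    obtain ⟨_, ⟨g, hg, rfl⟩, hu⟩ := hI.2 _ hd (Ph 𝒞 K x h) ⟨h, hh, rfl⟩
    refine ⟨Ph 𝒞 K y g, ⟨g, hg, rfl⟩, ?_⟩
    funext a'
    obtain ⟨a, rfl⟩ := σ'.surjective a'
    obtain ⟨-, h4, h5⟩ := 𝒞.c3_sub (by omega) (hσ' a)
    have h3 := congrFun hu a
    rw [Pi.mul_apply, Ph_apply, mu_apply] at h3
    rw [Pi.mul_apply, Ph_apply, ← h4, ← h3, mu_apply]
    obtain ⟨σ'', hσ''⟩ := 𝒞.ext3 (by omega) (hσ' a)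
    rw [← Equiv.sum_comp σ'' (fun b => e (σ' a) b ^ 2 * (e b (σ d) * Ph 𝒞 K y h b))]
    refine Finset.sum_congr rfl fun b _ => ?_
    obtain ⟨-, h6, h7, h8⟩ := 𝒞.c4_sub (by omega) (hσ'' b)
    rw [Ph_apply, Ph_apply, he _ _ _ _ (𝒞.c3_sub (by omega) h7).2.2,
      he _ _ _ _ (𝒞.c2_swap (by omega) (𝒞.c3_sub (by omega) h6).2.2),
      (𝒞.c3_sub (by omega) h6).2.1]
  have hw' : w = ∑ d, w d • (fun b => e b d) := by
    rw [mem_Mim] at hw
    conv_lhs => rw [← hw]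
    funext a
    rw [Finset.sum_apply]
    simp only [mulVec, dotProduct, Pi.smul_apply, smul_eq_mul]
    exact Finset.sum_congr rfl fun b _ => mul_comm _ _
  rw [hw', mu_sum_left]
  refine Submodule.sum_mem _ fun d _ => ?_
  rw [mu_smul_left]
  exact Submodule.smul_mem _ _ (hcol d)

/-- a function with values modulo the order of `g` which increases by one under `g` -/
theorem exists_psi {G : Type*} [Group G] (g : G) (hg : orderOf g ≠ 0) :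
    ∃ ψ : G → ZMod (orderOf g), ∀ x, ψ (g * x) = ψ x + 1 := by
  classical
  let S : Setoid G :=
    { r := fun a b => ∃ k : ℤ, a = g ^ k * b
      iseqv := by
        refine ⟨fun a => ⟨0, by simp⟩, ?_, ?_⟩
        · rintro a b ⟨k, rfl⟩
          exact ⟨-k, by simp⟩
        · rintro a b c ⟨k, rfl⟩ ⟨l, rfl⟩
          exact ⟨k + l, by rw [_root_.zpow_add, mul_assoc]⟩ }
  let rep : G → G := fun a => (Quotient.mk S a).out
  have hrep : ∀ a, ∃ k : ℤ, a = g ^ k * rep a := by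
    intro a
    have h : S.r (rep a) a := Quotient.exact (Quotient.out_eq (Quotient.mk S a))
    exact S.iseqv.symm h
  have hrep' : ∀ a, rep (g * a) = rep a := by
    intro a
    have h : Quotient.mk S (g * a) = Quotient.mk S a := Quotient.sound ⟨1, by simp⟩
    simp only [rep, h]
  choose k hk using hrep
  refine ⟨fun a => (k a : ZMod (orderOf g)), fun a => ?_⟩
  have h1 : g ^ (k (g * a)) = g ^ (k a + 1) := by
    have h2 := hk (g * a)
    rw [hrep'] at h2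
    have h3 := hk a
    have h4 : g ^ (k (g * a)) * rep a = g ^ (k a + 1) * rep a := by
      rw [← h2, add_comm, _root_.zpow_add, zpow_one, mul_assoc, ← h3]
    exact mul_right_cancel h4
  rw [zpow_eq_zpow_iff_modEq] at h1
  have h5 := (ZMod.intCast_eq_intCast_iff _ _ _).2 h1
  push_cast at h5
  exact h5

section main

/-- all that is needed of the minimal ideal -/
structure Dat (𝒞 : Cfg V ι m) (e : Matrix V V K) (x : V) (H : Submodule K (ι → K)) : Prop where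
  hm : 4 ≤ m
  he : 𝒞.Inv2 e
  hee : e * e = e
  hn : 𝒞.Non e
  ideal : IsIdeal e (H.map (Ph 𝒞 K x))
  minimal : ∀ J, IsIdeal e J → J ≤ H.map (Ph 𝒞 K x) → J ≠ ⊥ → J = H.map (Ph 𝒞 K x)
  supp : ∀ h ∈ H, ∀ i, (∀ a, 𝒞.c2 x a ≠ i) → h i = 0
  ne : H ≠ ⊥

variable {𝒞 : Cfg V ι m} {e : Matrix V V K} {x : V} {H : Submodule K (ι → K)}

theorem Dat.inj (D : Dat 𝒞 e x H) {y : V} (hy : 𝒞.c1 y = 𝒞.c1 x) {h h' : ι → K} (hh : h ∈ H)
    (hh' : h' ∈ H) (heq : Ph 𝒞 K y h = Ph 𝒞 K y h') : h = h' := by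
  have hm := D.hm
  funext i
  by_cases hi : ∃ a, 𝒞.c2 x a = i
  · obtain ⟨a, rfl⟩ := hi
    obtain ⟨σ, hσ⟩ := 𝒞.ext1 (by omega) hy.symm
    have h1 := congrFun heq (σ a)
    rw [Ph_apply, Ph_apply, ← hσ a] at h1
    exact h1
  · have hi' : ∀ a, 𝒞.c2 x a ≠ i := fun a h => hi ⟨a, h⟩
    rw [D.supp h hh i hi', D.supp h' hh' i hi']

theorem Dat.isIdeal (D : Dat 𝒞 e x H) {y : V} (hy : 𝒞.c1 y = 𝒞.c1 x) :
    IsIdeal e (H.map (Ph 𝒞 K y)) :=
  isIdeal_move 𝒞 D.hm D.he D.hee hy.symm H D.ideal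

theorem Dat.min (D : Dat 𝒞 e x H) {y : V} (hy : 𝒞.c1 y = 𝒞.c1 x) {J : Submodule K (V → K)}
    (hJ : IsIdeal e J) (hle : J ≤ H.map (Ph 𝒞 K y)) (hne : J ≠ ⊥) : J = H.map (Ph 𝒞 K y) := by
  set H' : Submodule K (ι → K) := H ⊓ J.comap (Ph 𝒞 K y) with hH'
  have h1 : H'.map (Ph 𝒞 K y) = J := by
    apply le_antisymm
    · rintro _ ⟨h, hh, rfl⟩
      exact hh.2
    · intro v hv
      obtain ⟨h, hh, rfl⟩ := hle hv
      exact ⟨h, ⟨hh, hv⟩, rfl⟩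
  have h2 : IsIdeal e (H'.map (Ph 𝒞 K x)) :=
    isIdeal_move 𝒞 D.hm D.he D.hee hy H' (by rw [h1]; exact hJ)
  have h3 : H'.map (Ph 𝒞 K x) ≠ ⊥ := by
    intro h4
    apply hne
    rw [← h1, Submodule.eq_bot_iff]
    rintro _ ⟨h, hh, rfl⟩
    have h5 : Ph 𝒞 K x h ∈ H'.map (Ph 𝒞 K x) := ⟨h, hh, rfl⟩
    rw [h4, Submodule.mem_bot] at h5
    have h6 : h = 0 := D.inj rfl hh.1 H.zero_mem (by rw [h5, map_zero])
    rw [h6, map_zero]
  have h4 := D.minimal _ h2 (Submodule.map_mono inf_le_left) h3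
  apply le_antisymm hle
  rintro _ ⟨h, hh, rfl⟩
  have h5 : Ph 𝒞 K x h ∈ H'.map (Ph 𝒞 K x) := by rw [h4]; exact ⟨h, hh, rfl⟩
  obtain ⟨h', hh', h6⟩ := h5
  have h7 : h' = h := D.inj rfl hh'.1 hh h6
  rw [← h7]
  exact hh'.2

theorem Dat.inf_eq_bot (D : Dat 𝒞 e x H) {y z : V} (hy : 𝒞.c1 y = 𝒞.c1 x)
    (hz : 𝒞.c1 z = 𝒞.c1 x) (hne : H.map (Ph 𝒞 K y) ≠ H.map (Ph 𝒞 K z)) :
    H.map (Ph 𝒞 K y) ⊓ H.map (Ph 𝒞 K z) = ⊥ := by
  by_contra h
  have h1 := (D.isIdeal hy).inf (D.isIdeal hz)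
  have h2 := D.min hy h1 inf_le_left h
  have h3 := D.min hz h1 inf_le_right h
  exact hne (h2.symm.trans h3)

/-- `g` carries `h_y` to `h_z` -/
def Rel (𝒞 : Cfg V ι m) (H : Submodule K (ι → K)) (y z : V) (g : Equiv.Perm H) : Prop :=
  ∀ h : H, Ph 𝒞 K z (g h : ι → K) = Ph 𝒞 K y (h : ι → K)

theorem Rel.congr (hm : 3 ≤ m) {y z y' z' : V} {g : Equiv.Perm H} (hg : Rel 𝒞 H y z g)
    (h : 𝒞.c2 y z = 𝒞.c2 y' z') : Rel 𝒞 H y' z' g := by
  intro k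
  funext a'
  obtain ⟨σ, hσ⟩ := 𝒞.ext2 hm h
  obtain ⟨a, rfl⟩ := σ.surjective a'
  obtain ⟨-, h1, h2⟩ := 𝒞.c3_sub hm (hσ a)
  have h3 := congrFun (hg k) a
  rw [Ph_apply, Ph_apply] at h3 ⊢
  rw [← h1, ← h2]
  exact h3

theorem Rel.eq_map {y z : V} {g : Equiv.Perm H} (hg : Rel 𝒞 H y z g) :
    H.map (Ph 𝒞 K y) = H.map (Ph 𝒞 K z) := by
  apply le_antisymm
  · rintro _ ⟨h, hh, rfl⟩
    exact ⟨(g ⟨h, hh⟩ : ι → K), (g ⟨h, hh⟩).2, hg ⟨h, hh⟩⟩
  · rintro _ ⟨h, hh, rfl⟩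
    refine ⟨(g.symm ⟨h, hh⟩ : ι → K), (g.symm ⟨h, hh⟩).2, ?_⟩
    have h1 := hg (g.symm ⟨h, hh⟩)
    rw [Equiv.apply_symm_apply] at h1
    exact h1.symm

theorem Dat.rel_unique (D : Dat 𝒞 e x H) {y z : V} (hz : 𝒞.c1 z = 𝒞.c1 x) {g g' : Equiv.Perm H}
    (hg : Rel 𝒞 H y z g) (hg' : Rel 𝒞 H y z g') : g = g' := by
  ext1 h
  apply Subtype.ext
  exact D.inj hz (g h).2 (g' h).2 ((hg h).trans (hg' h).symm)

theorem Dat.exists_rel (D : Dat 𝒞 e x H) {y z : V} (hy : 𝒞.c1 y = 𝒞.c1 x)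
    (hz : 𝒞.c1 z = 𝒞.c1 x) (h : H.map (Ph 𝒞 K y) = H.map (Ph 𝒞 K z)) :
    ∃ g : Equiv.Perm H, Rel 𝒞 H y z g := by
  have h1 : ∀ k : H, ∃ k' : H, Ph 𝒞 K z (k' : ι → K) = Ph 𝒞 K y (k : ι → K) := by
    intro k
    have h2 : Ph 𝒞 K y (k : ι → K) ∈ H.map (Ph 𝒞 K z) := by rw [← h]; exact ⟨k, k.2, rfl⟩
    obtain ⟨k', hk', h3⟩ := h2
    exact ⟨⟨k', hk'⟩, h3⟩
  choose f hf using h1
  have hinj : Function.Injective f := by
    intro a b hab
    have h2 := hf a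
    rw [hab, hf b] at h2
    exact Subtype.ext (D.inj hy b.2 a.2 h2).symm
  have hsurj : Function.Surjective f := by
    intro k
    have h2 : Ph 𝒞 K z (k : ι → K) ∈ H.map (Ph 𝒞 K y) := by rw [h]; exact ⟨k, k.2, rfl⟩
    obtain ⟨k', hk', h3⟩ := h2
    refine ⟨⟨k', hk'⟩, Subtype.ext (D.inj hz (f ⟨k', hk'⟩).2 k.2 ?_)⟩
    rw [hf ⟨k', hk'⟩]
    exact h3
  exact ⟨Equiv.ofBijective f ⟨hinj, hsurj⟩, fun k => hf k⟩

/-- the sum of the `h_z` over the class of `x` vanishes -/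
theorem Dat.sum_cls (D : Dat 𝒞 e x H) {h : ι → K} (hh : h ∈ H) :
    ∑ z ∈ 𝒞.cls (𝒞.c1 x), Ph 𝒞 K z h = 0 := by
  have hm := D.hm
  set T := ∑ z ∈ 𝒞.cls (𝒞.c1 x), Ph 𝒞 K z h with hT
  have h1 : e *ᵥ T = T := by
    have : T ∈ Mim e := by
      refine Submodule.sum_mem _ fun z hz => ?_
      rw [𝒞.mem_cls] at hz
      exact (D.isIdeal hz).1 ⟨h, hh, rfl⟩
    exact this
  have h2 : ∀ a b, 𝒞.c1 a = 𝒞.c1 b → T a = T b := by
    intro a b hab
    obtain ⟨σ, hσ⟩ := 𝒞.ext1 (by omega) hab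
    have hT' : ∀ c, T c = ∑ z, if 𝒞.c1 z = 𝒞.c1 x then h (𝒞.c2 z c) else 0 := by
      intro c
      rw [hT, Finset.sum_apply, Cfg.cls, Finset.sum_filter]
      rfl
    rw [hT', hT']
    rw [← Equiv.sum_comp σ (fun z => if 𝒞.c1 z = 𝒞.c1 x then h (𝒞.c2 z b) else 0)]
    refine Finset.sum_congr rfl fun z _ => ?_
    rw [(𝒞.c1_of_c2 (by omega) (hσ z)).2, 𝒞.c2_swap (by omega) (hσ z)]
  have h3 : 𝒞.tau K *ᵥ T = T := by
    funext a
    simp only [mulVec, dotProduct]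
    have h4 : ∀ b, 𝒞.tau K a b * T b = 𝒞.tau K b a * T a := by
      intro b
      rw [𝒞.tau_char_two (by omega), 𝒞.tau_char_two (by omega)]
      by_cases hab : 𝒞.c1 a = 𝒞.c1 b
      · rw [if_pos hab, if_pos hab.symm, h2 a b hab]
      · rw [if_neg hab, if_neg (fun h => hab h.symm), zero_mul, zero_mul]
    rw [Finset.sum_congr rfl fun b _ => h4 b, ← Finset.sum_mul]
    have h5 : ∑ b, 𝒞.tau K b a = 1 := by
      simp only [𝒞.tau_char_two (show 2 ≤ m by omega)]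
      rw [← Finset.sum_filter, Finset.sum_const, nsmul_eq_mul, mul_one]
      exact odd_cast (𝒞.cls_odd (by omega) a)
    rw [h5, one_mul]
  rw [← h1, ← h3, mulVec_mulVec, (𝒞.non_iff (𝒞.good_of_char_two (by omega) K) e).1 D.hn,
    zero_mulVec]

/-- the sum of the `h_z` over the block of `x` vanishes -/
theorem Dat.sum_block (D : Dat 𝒞 e x H) {h : ι → K} (hh : h ∈ H)
    [DecidablePred fun z => H.map (Ph 𝒞 K z) = H.map (Ph 𝒞 K x)] :
    ∑ z ∈ (𝒞.cls (𝒞.c1 x)).filter (fun z => H.map (Ph 𝒞 K z) = H.map (Ph 𝒞 K x)),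
      Ph 𝒞 K z h = 0 := by
  set S := ∑ z ∈ (𝒞.cls (𝒞.c1 x)).filter (fun z => H.map (Ph 𝒞 K z) = H.map (Ph 𝒞 K x)),
      Ph 𝒞 K z h with hS
  set R := ∑ z ∈ (𝒞.cls (𝒞.c1 x)).filter (fun z => ¬ H.map (Ph 𝒞 K z) = H.map (Ph 𝒞 K x)),
      Ph 𝒞 K z h with hR
  have h1 : S + R = 0 := by
    rw [hS, hR, Finset.sum_filter_add_sum_filter_not]
    exact D.sum_cls hh
  have h2 : S ∈ H.map (Ph 𝒞 K x) := by
    refine Submodule.sum_mem _ fun z hz => ?_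
    rw [mem_filter] at hz
    rw [← hz.2]
    exact ⟨h, hh, rfl⟩
  have h3 : mu e S R = 0 := by
    rw [hR, mu_sum_right]
    refine Finset.sum_eq_zero fun z hz => ?_
    rw [mem_filter, 𝒞.mem_cls] at hz
    exact (D.isIdeal rfl).mu_eq_zero (D.isIdeal hz.1)
      (D.inf_eq_bot rfl hz.1 (fun h => hz.2 h.symm)) h2 ⟨h, hh, rfl⟩
  have h4 : mu e S S = 0 := by
    have h5 : S = -R := eq_neg_of_add_eq_zero_left h1
    conv_lhs => rw [show mu e S S = mu e S (-R) by rw [← h5]]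
    rw [mu_neg_right, h3, neg_zero]
  rw [mu_self (D.ideal.1 h2)] at h4
  exact sq_inj (by rw [h4, zero_mul])

/-- the group -/
def Dat.group (D : Dat 𝒞 e x H) : Subgroup (Equiv.Perm H) where
  carrier := {g | ∃ y z, 𝒞.c1 y = 𝒞.c1 x ∧ 𝒞.c1 z = 𝒞.c1 x ∧ Rel 𝒞 H y z g}
  mul_mem' := by
    have hm := D.hm
    rintro g g' ⟨y, z, hy, hz, hg⟩ ⟨y', z', hy', hz', hg'⟩
    obtain ⟨σ, hσ⟩ := 𝒞.ext1 (by omega) (hy.trans hz'.symm)
    refine ⟨y', σ z, hy', ?_, ?_⟩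
    · rw [← (𝒞.c1_of_c2 (by omega) (hσ z)).2, hz]
    · intro h
      have h1 := hg.congr (by omega) (hσ z) (g' h)
      rw [Equiv.Perm.mul_apply, h1, hg' h]
  one_mem' := ⟨x, x, rfl, rfl, fun h => rfl⟩
  inv_mem' := by
    rintro g ⟨y, z, hy, hz, hg⟩
    refine ⟨z, y, hz, hy, fun h => ?_⟩
    have h1 := hg (g⁻¹ h)
    rw [show g (g⁻¹ h) = h from g.apply_symm_apply h] at h1
    exact h1.symm

theorem Dat.finite_group (D : Dat 𝒞 e x H) : Finite D.group := by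
  have h : ∀ g : D.group, ∃ p : V × V, 𝒞.c1 p.2 = 𝒞.c1 x ∧ Rel 𝒞 H p.1 p.2 g.1 := by
    rintro ⟨g, y, z, hy, hz, hg⟩
    exact ⟨(y, z), hz, hg⟩
  choose f hf using h
  refine Finite.of_injective f ?_
  intro g g' hgg
  apply Subtype.ext
  have h1 := hf g
  have h2 := hf g'
  rw [← hgg] at h2
  exact D.rel_unique h1.1 h1.2 h2.2

theorem Dat.nontrivial_group (D : Dat 𝒞 e x H) : Nontrivial D.group := by
  classical
  by_contra hcon
  rw [not_nontrivial_iff_subsingleton] at hcon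
  have hm := D.hm
  obtain ⟨h, hh, hne⟩ := (Submodule.ne_bot_iff H).1 D.ne
  have h1 := D.sum_block hh
  have h2 : ∀ z ∈ (𝒞.cls (𝒞.c1 x)).filter (fun z => H.map (Ph 𝒞 K z) = H.map (Ph 𝒞 K x)),
      Ph 𝒞 K z h = Ph 𝒞 K x h := by
    intro z hz
    rw [mem_filter, 𝒞.mem_cls] at hz
    obtain ⟨g, hg⟩ := D.exists_rel rfl hz.1 hz.2.symm
    have h3 : (⟨g, x, z, rfl, hz.1, hg⟩ : D.group) = 1 := Subsingleton.elim _ _
    have h4 : g = 1 := congrArg Subtype.val h3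
    have h5 := hg ⟨h, hh⟩
    rw [h4] at h5
    exact h5
  rw [Finset.sum_congr rfl h2, Finset.sum_const, ← Nat.cast_smul_eq_nsmul K] at h1
  have h3 : Odd ((𝒞.cls (𝒞.c1 x)).filter
      (fun z => H.map (Ph 𝒞 K z) = H.map (Ph 𝒞 K x))).card := by
    have h4 := odd_block 𝒞 (by omega)
      (fun a b => 𝒞.c1 a = 𝒞.c1 x ∧ 𝒞.c1 b = 𝒞.c1 x ∧ H.map (Ph 𝒞 K a) = H.map (Ph 𝒞 K b))
      (by
        rintro a b a' b' h5 ⟨h6, h7, h8⟩
        have h9 := 𝒞.c1_of_c2 (by omega) h5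
        refine ⟨h9.1.symm.trans h6, h9.2.symm.trans h7, ?_⟩
        obtain ⟨g, hg⟩ := D.exists_rel h6 h7 h8
        exact (hg.congr (by omega) h5).eq_map)
      (fun a b h => h.1.trans h.2.1.symm) (fun a b h => ⟨h.2.1, h.1, h.2.2.symm⟩) x
      ⟨rfl, rfl, rfl⟩
    convert h4 using 2
    ext z
    simp only [mem_filter, 𝒞.mem_cls, mem_univ, true_and]
    exact ⟨fun h => ⟨h.1, h.2.symm⟩, fun h => ⟨h.1, h.2.symm⟩⟩
  rw [odd_cast h3, one_smul] at h1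
  exact hne (D.inj rfl hh H.zero_mem (by rw [h1, map_zero]))

theorem Dat.false (D : Dat 𝒞 e x H) : False := by
  classical
  have hm := D.hm
  haveI := D.finite_group
  haveI := D.nontrivial_group
  obtain ⟨p, hp, hdvd⟩ := Nat.exists_prime_and_dvd (n := Nat.card D.group)
    (Finite.one_lt_card).ne'
  haveI : Fact p.Prime := ⟨hp⟩
  obtain ⟨g, hg⟩ := exists_prime_orderOf_dvd_card' p hdvd
  obtain ⟨g0, y0, z0, hy0, hz0, hrel⟩ := g
  set g : D.group := ⟨g0, y0, z0, hy0, hz0, hrel⟩ with hgdef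
  obtain ⟨ψ, hψ⟩ := exists_psi g (by rw [hg]; exact hp.ne_zero)
  -- base points
  let s : V → V := fun a => if h : ∃ z, 𝒞.c1 z = 𝒞.c1 x ∧ H.map (Ph 𝒞 K z) = H.map (Ph 𝒞 K a)
    then h.choose else x
  have hs : ∀ a, 𝒞.c1 a = 𝒞.c1 x → 𝒞.c1 (s a) = 𝒞.c1 x ∧
      H.map (Ph 𝒞 K (s a)) = H.map (Ph 𝒞 K a) := by
    intro a ha
    have h : ∃ z, 𝒞.c1 z = 𝒞.c1 x ∧ H.map (Ph 𝒞 K z) = H.map (Ph 𝒞 K a) := ⟨a, ha, rfl⟩
    simp only [s, dif_pos h]
    exact h.choose_spec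
  have hs' : ∀ a b, H.map (Ph 𝒞 K a) = H.map (Ph 𝒞 K b) → s a = s b := by
    intro a b h
    simp only [s, h]
  have hγ : ∀ a, ∃ γ : D.group, 𝒞.c1 a = 𝒞.c1 x → Rel 𝒞 H (s a) a γ.1 := by
    intro a
    by_cases ha : 𝒞.c1 a = 𝒞.c1 x
    · obtain ⟨γ, hγ⟩ := D.exists_rel (hs a ha).1 ha (hs a ha).2
      exact ⟨⟨γ, s a, a, (hs a ha).1, ha, hγ⟩, fun _ => hγ⟩
    · exact ⟨1, fun h => absurd h ha⟩
  choose γ hγ using hγ
  have key : ∀ a b, 𝒞.c2 a b = 𝒞.c2 y0 z0 → ψ (γ b) = ψ (γ a) + 1 := by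
    intro a b hab
    have h1 := 𝒞.c1_of_c2 (by omega) hab
    have ha : 𝒞.c1 a = 𝒞.c1 x := h1.1.trans hy0
    have hb : 𝒞.c1 b = 𝒞.c1 x := h1.2.trans hz0
    have h2 : Rel 𝒞 H a b g0 := hrel.congr (by omega) hab.symm
    have h3 : s a = s b := hs' _ _ h2.eq_map
    have h4 : Rel 𝒞 H (s b) b (g * γ a).1 := by
      intro k
      have h5 := h2 ((γ a).1 k)
      have h6 := hγ a ha k
      rw [← h3, ← h6, ← h5]
      rfl
    have h5 : γ b = g * γ a := Subtype.ext (D.rel_unique hb (hγ b hb) h4)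
    rw [h5, hψ]
  have hins : ∀ a b : V, 𝒞.col (0 + 2) (ins (0 + 1) (ins 0 (fun _ => x) a) b) = 𝒞.c2 a b := by
    intro a b
    rw [𝒞.c2_eq (by omega)]
    rfl
  have hins1 : ∀ a : V, 𝒞.col (0 + 1) (ins 0 (fun _ => x) a) = 𝒞.c1 a := by
    intro a
    rw [𝒞.c1_eq (by omega)]
    rfl
  have hcyc := 𝒞.cyc 0 (by omega) (fun _ => x) (𝒞.c2 y0 z0) (orderOf g) (fun a => ψ (γ a))
    (by rw [hg]; exact hp) ⟨y0, z0, hins y0 z0⟩
    (by
      intro a b hab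
      rw [hins] at hab
      rw [hins1, hins1]
      have h1 := 𝒞.c1_of_c2 (by omega) hab
      rw [h1.1, h1.2, hy0, hz0])
  apply hcyc
  intro a b hab
  rw [hins] at hab
  exact key a b hab

end main

/-- **case b** -/
theorem caseB (𝒞 : Cfg V ι (m + 2)) (hm : 2 ≤ m) {e : Matrix V V K} (he : 𝒞.Inv2 e)
    (hee : e * e = e) (hn : 𝒞.Non e) {ρ : ι} (hX : ∀ a b, e a b ≠ 0 → 𝒞.c1 a = ρ)
    (h0 : e ≠ 0) : ∃ x, 𝒞.c1 x = ρ ∧ ∃ B : Matrix V V K, (𝒞.fix x).Inv2 B ∧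
      (e - e * (𝒞.fix x).tau K)ᵀ * B * (e - e * (𝒞.fix x).tau K) ≠ 0 := by
  classical
  by_contra hcon
  have hx : ∀ x, 𝒞.c1 x = ρ → ∀ B : Matrix V V K, (𝒞.fix x).Inv2 B →
      (qx 𝒞 e x)ᵀ * B * qx 𝒞 e x = 0 := by
    intro x hx B hB
    by_contra h
    exact hcon ⟨x, hx, B, hB, h⟩
  -- a minimal ideal
  have hM : Mim e ≠ ⊥ := by
    intro h
    apply h0
    ext a b
    have h1 : (fun c => e c b) ∈ Mim e := by
      rw [mem_Mim]
      funext c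
      have := congrFun (congrFun hee c) b
      rw [Matrix.mul_apply] at this
      exact this
    rw [h, Submodule.mem_bot] at h1
    exact congrFun h1 a
  obtain ⟨I, ⟨hI, hI0⟩, hmin⟩ := (wellFounded_lt (α := Submodule K (V → K))).has_min
    {I | IsIdeal e I ∧ I ≠ ⊥} ⟨Mim e, isIdeal_Mim hee, hM⟩
  have hmin' : ∀ J, IsIdeal e J → J ≤ I → J ≠ ⊥ → J = I := by
    intro J hJ hle hne
    by_contra h
    exact hmin J ⟨hJ, hne⟩ (lt_of_le_of_ne hle h)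
  obtain ⟨v, hv, hvne⟩ := (Submodule.ne_bot_iff I).1 hI0
  obtain ⟨x, hvx⟩ : ∃ x, v x ≠ 0 := by
    by_contra h
    push Not at h
    exact hvne (funext h)
  have hxρ : 𝒞.c1 x = ρ := by
    have h1 : e *ᵥ v = v := hI.1 hv
    have h2 := congrFun h1 x
    by_contra h
    apply hvx
    rw [← h2]
    simp only [mulVec, dotProduct]
    refine Finset.sum_eq_zero fun b _ => ?_
    by_cases h3 : e x b = 0
    · rw [h3, zero_mul]
    · exact absurd (hX x b h3) h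
  have hxx := hx x hxρ
  have hcls : ∀ a, (𝒞.fix x).c1 x = (𝒞.fix x).c1 a → x = a := by
    intro a h
    rw [𝒞.fix_c1 (by omega), 𝒞.fix_c1 (by omega)] at h
    exact (𝒞.eq_of_c2 (by omega) h).1 rfl
  have hbot : I ⊓ Wx 𝒞 e x = ⊥ := by
    by_contra h
    have h1 := hmin' _ (hI.inf (isIdeal_Wx 𝒞 (by omega) he hee x hxx)) inf_le_left h
    have h2 : v ∈ I ⊓ Wx 𝒞 e x := by rw [h1]; exact hv
    have h3 : tx 𝒞 K x *ᵥ v = 0 := h2.2.2
    have h4 := congrFun h3 x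
    simp only [mulVec, dotProduct, tx, Pi.zero_apply] at h4
    rw [Finset.sum_eq_single x] at h4
    · rw [(𝒞.fix x).tau_char_two (by omega), if_pos rfl, one_mul] at h4
      exact hvx h4
    · intro b _ hb
      rw [(𝒞.fix x).tau_char_two (by omega), if_neg (fun h => hb (hcls b h).symm), zero_mul]
    · simp
  have hfix : ∀ w ∈ I, ∀ a b, 𝒞.c2 x a = 𝒞.c2 x b → w a = w b := by
    intro w hw a b hab
    have h1 := fixed_of_inf_eq_bot 𝒞 hm he hee x hxx hI hbot hw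
    rw [← h1]
    simp only [mulVec, dotProduct, tx]
    refine Finset.sum_congr rfl fun c _ => ?_
    rw [(𝒞.fix x).tau_char_two (by omega), (𝒞.fix x).tau_char_two (by omega),
      𝒞.fix_c1 (by omega) x a, 𝒞.fix_c1 (by omega) x b, hab]
  set S : Submodule K (ι → K) :=
    { carrier := {h | ∀ i, (∀ a, 𝒞.c2 x a ≠ i) → h i = 0}
      add_mem' := by
        intro a b ha hb i hi
        rw [Pi.add_apply, ha i hi, hb i hi, add_zero]
      zero_mem' := by intro i _; rfl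
      smul_mem' := by
        intro c a ha i hi
        rw [Pi.smul_apply, ha i hi, smul_zero] } with hS
  set H : Submodule K (ι → K) := I.comap (Ph 𝒞 K x) ⊓ S with hH
  have hmap : H.map (Ph 𝒞 K x) = I := by
    apply le_antisymm
    · rintro _ ⟨h, hh, rfl⟩
      exact hh.1
    · intro w hw
      let h : ι → K := fun i => if hi : ∃ a, 𝒞.c2 x a = i then w hi.choose else 0
      have h1 : Ph 𝒞 K x h = w := by
        funext a
        have hi : ∃ a', 𝒞.c2 x a' = 𝒞.c2 x a := ⟨a, rfl⟩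
        rw [Ph_apply]
        simp only [h, dif_pos hi]
        exact hfix w hw _ _ hi.choose_spec
      refine ⟨h, ⟨?_, ?_⟩, h1⟩
      · show Ph 𝒞 K x h ∈ I
        rw [h1]; exact hw
      · intro i hi
        have : ¬ ∃ a, 𝒞.c2 x a = i := fun ⟨a, ha⟩ => hi a ha
        simp only [h, dif_neg this]
  have D : Dat 𝒞 e x H :=
    { hm := by omega
      he := he
      hee := hee
      hn := hn
      ideal := by rw [hmap]; exact hI
      minimal := by rw [hmap]; exact hmin'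
      supp := fun h hh => hh.2
      ne := by
        intro h
        apply hI0
        rw [← hmap, h, Submodule.map_bot] }
  exact D.false

end Vale.Agent.P319.H916
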