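import Vale.Agent.P319.H916.CaseA
import Vale.Agent.P319.SC.H232.AM
import Vale.Agent.P319.H924.Van
import Vale.Agent.P319.H676.Deg
import Vale.Agent.P319.SC.Gro
import Vale.Agent.P319.SC.H323.Main

/-! P319, block SC: the combinatorial theorem. -/

namespace Vale.Agent.P319.SC

/-- **combinatorial theorem**: `m log m ≤ C log n` for homogeneous configurations with `m` levels
on `n` points. -/
theorem main : MainStmt :=
  main_of_gro (gro_of Vale.Agent.P319.SC.H232.am Vale.Agent.P319.H924.van
    (Vale.Agent.P319.H676.deg_of_dbl Vale.Agent.P319.H916.dbl))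

end Vale.Agent.P319.SC
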